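import Crest.Agent.X212.Glb47.Grid

/-!
# X212 / Glb47 (helper47): handle straightening implies smoothing of homeomorphisms of 3-manifolds
-/

set_option autoImplicit false

open Set Filter Topology Function Metric
open scoped ContDiff Manifold
open Crest.Agent.X212.Glue52

noncomputable section

namespace Crest.Agent.X212.Glb47

variable {EM : Type*} [NormedAddCommGroup EM] [NormedSpace ℝ EM] {HM : Type*} [TopologicalSpace HM]
  {I : ModelWithCorners ℝ EM HM} [I.Boundaryless] {M : Type*} [TopologicalSpace M]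
  [ChartedSpace HM M] [IsManifold I ∞ M]
  {N : Type*} [TopologicalSpace N] [ChartedSpace E3 N] [IsManifold 𝓘(ℝ, E3) ∞ N]

/-- every point is the centre of a smooth open embedding of `ℝ³` -/
theorem exists_param (L : EM ≃L[ℝ] E3) (x : M) :
    ∃ e : E3 → M, IsLocalDiffeomorph 𝓘(ℝ, E3) I ∞ e ∧ Injective e ∧ e 0 = x := by
  let a := chL I L x
  have xa : x ∈ a.source := mem_chL L x
  obtain ⟨e, e1, e2, e3, -, e5⟩ := exists_box (c := a x) (J := ∅) one_pos a.open_target isOpen_empty
    (fun y hy => by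
      have : y = a x := by ext i; exact (hy i).2 (by simp)
      exact this ▸ a.map_source xa)
    (fun y hy => hy.2 fun i => ⟨fun h => by simp at h, (hy.1 i).2⟩)
  refine ⟨a.symm ∘ e, fun y => (e1 y).comp _ _ (a.symm.isLocalDiffeomorphAt _ _ _ (e3 y)),
    fun y z h => e2 (a.symm.injOn (e3 y) (e3 z) h), ?_⟩
  rcases e5 (a x) (fun i => ⟨fun h => by simp at h, fun _ => rfl⟩) with ⟨y, hy, h⟩ | h
  · have : y = 0 := by ext i; exact hy i (by simp)
    subst this
    show a.symm (e 0) = x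
    rw [h]
    exact a.left_inv xa
  · exact absurd h.2 (notMem_empty _)

/-- **G0**: an open embedding is smooth near a compact set after a compactly supported
homeomorphism of the source -/
theorem smooth_near [T2Space M] (H : ∀ k, k ≤ 3 → HS k) (L : EM ≃L[ℝ] E3) {f : M → N}
    (hf : IsOpenEmbedding f) {D : Set M} (hD : IsCompact D) :
    ∃ (ψ : M ≃ₜ M) (K : Set M), IsCompact K ∧ (∀ x, x ∉ K → ψ x = x) ∧
      (ψ : C(M, M)).Homotopic (ContinuousMap.id M) ∧
      ∀ x ∈ D, IsLocalDiffeomorphAt I 𝓘(ℝ, E3) ∞ (f ∘ ψ) x := by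
  classical
  choose e e1 e2 e3 using exists_param (I := I) (M := M) L
  have he : ∀ x, IsOpenEmbedding (e x) := fun x => ld_isOpenEmbedding (e1 x) (e2 x)
  obtain ⟨t, -, ht⟩ := hD.elim_nhds_subcover (fun x => e x '' closedBall 0 1) fun x _ => by
    have := (he x).isOpenMap.image_mem_nhds (closedBall_mem_nhds (0 : E3) one_pos)
    rwa [e3] at this
  have main : ∀ t : Finset M, ∃ (ψ : M ≃ₜ M) (K : Set M), IsCompact K ∧ (∀ x, x ∉ K → ψ x = x) ∧
      (ψ : C(M, M)).Homotopic (ContinuousMap.id M) ∧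
      ∀ x ∈ ⋃ p ∈ t, e p '' closedBall 0 1, IsLocalDiffeomorphAt I 𝓘(ℝ, E3) ∞ (f ∘ ψ) x := by
    intro t
    induction t using Finset.induction_on with
    | empty => exact ⟨Homeomorph.refl M, ∅, isCompact_empty, fun _ _ => rfl, .refl _, by simp⟩
    | insert p t _ ih =>
      obtain ⟨ψ, K, k1, k2, k3, k4⟩ := ih
      have hc : IsClosed (⋃ p ∈ t, e p '' closedBall 0 1) :=
        (t.isCompact_biUnion fun q _ => (isCompact_closedBall _ _).image (he q).continuous).isClosed
      obtain ⟨χ, C, c1, c2, c3⟩ := rel H ((hf.comp ψ.isOpenEmbedding).comp (he p))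
        (hc.preimage (he p).continuous) (isCompact_closedBall (0 : E3) 1)
        fun z hz => (e1 p z).comp _ _ (k4 _ hz)
      obtain ⟨Ψ, p1, p2, p3⟩ := exists_pushH_homotopic (he p) χ c1 c2
      have cC := c1.image (he p).continuous
      refine ⟨Ψ.trans ψ, e p '' C ∪ K, cC.union k1, fun x hx => ?_, ?_, fun x hx => ?_⟩
      · rw [mem_union, not_or] at hx
        rw [Homeomorph.trans_apply, p2 x hx.1, k2 x hx.2]
      · simpa using k3.comp p3
      · rw [Finset.set_biUnion_insert] at hx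
        by_cases hr : ∃ z, e p z = x
        · obtain ⟨z, rfl⟩ := hr
          refine ld_of_comp (e1 p z) ?_
          have : (f ∘ (Ψ.trans ψ)) ∘ e p = ((f ∘ ψ) ∘ e p) ∘ χ :=
            funext fun w => congrArg (f ∘ ψ) (p1 w)
          rw [this]
          refine c3 z (hx.symm.imp id ?_)
          rintro ⟨w, hw, h⟩
          exact e2 p h ▸ hw
        · have hx' := hx.resolve_left fun ⟨z, _, h⟩ => hr ⟨z, h⟩
          refine ld_congr (k4 x hx') ?_
          filter_upwards [cC.isClosed.isOpen_compl.mem_nhds fun ⟨z, _, h⟩ => hr ⟨z, h⟩] with y hy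
          exact congrArg (f ∘ ψ) (p2 y hy)
  obtain ⟨ψ, K, k1, k2, k3, k4⟩ := main t
  exact ⟨ψ, K, k1, k2, k3, fun x hx => k4 x (ht hx)⟩

/-- **G1**: a homeomorphism of closed smooth three-manifolds is homotopic to a diffeomorphism -/
theorem exists_diffeo [T2Space M] [CompactSpace M] (H : ∀ k, k ≤ 3 → HS k) (L : EM ≃L[ℝ] E3)
    (f : M ≃ₜ N) : ∃ g : M ≃ₘ^∞⟮I, 𝓘(ℝ, E3)⟯ N,
      (g.toHomeomorph : C(M, N)).Homotopic (f : C(M, N)) := by
  obtain ⟨ψ, -, -, -, k3, k4⟩ := smooth_near (I := I) H L f.isOpenEmbedding isCompact_univ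
  have ld : IsLocalDiffeomorph I 𝓘(ℝ, E3) ∞ (f ∘ ψ) := fun x => k4 x (mem_univ x)
  refine ⟨ld.diffeomorphOfBijective (f.bijective.comp ψ.bijective), ?_⟩
  exact (ContinuousMap.Homotopic.refl (f : C(M, N))).comp k3

end Crest.Agent.X212.Glb47
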