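import Crest.Agent.X212.Glb47.Wrap
import Crest.Agent.X212.Glb47.Man
import Crest.Agent.X212.Skel83.Top

/-!
# X212 / Glb47 (helper47): `Skel83.Tame` and `Skel83.Smooth` from PL handle straightening
-/

set_option autoImplicit false

open Set Filter Topology Function Metric
open scoped ContDiff Manifold
open Crest.Agent.X212.Glue52 Crest.Agent.X212.Ext52 Crest.GeometryTopology.DehnSurgery

noncomputable section

namespace Crest.Agent.X212.Glb47

/-- a bounded smooth embedding of the line which is the identity on `[-1, 1]` -/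
theorem exists_rho : ∃ ρ : ℝ → ℝ, ContDiff ℝ ∞ ρ ∧ (∀ t, 0 < deriv ρ t) ∧
    (∀ t, |t| ≤ 1 → ρ t = t) ∧ ∀ t, |ρ t| ≤ 6 := by
  let g : ℝ → ℝ := fun s => (1 + s ^ 2 * Real.smoothTransition (s ^ 2 - 1))⁻¹
  have p : ∀ s : ℝ, 1 ≤ 1 + s ^ 2 * Real.smoothTransition (s ^ 2 - 1) := fun s =>
    le_add_of_nonneg_right (mul_nonneg (sq_nonneg s) (Real.smoothTransition.nonneg _))
  have cg : ContDiff ℝ ∞ g := (contDiff_const.add ((contDiff_id.pow 2).mul
    (Real.smoothTransition.contDiff.comp ((contDiff_id.pow 2).sub contDiff_const)))).inv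
      fun s => (one_pos.trans_le (p s)).ne'
  have g0 : ∀ s, 0 < g s := fun s => inv_pos.2 (one_pos.trans_le (p s))
  have g1 : ∀ s, g s ≤ 3 * (1 / (1 + s ^ 2)) := fun s => by
    have q : 0 < 1 + s ^ 2 := by positivity
    rw [mul_one_div, le_div_iff₀ q]
    rcases le_total (s ^ 2) 2 with h | h
    · have : g s ≤ 1 := inv_le_one_of_one_le₀ (p s)
      nlinarith [g0 s]
    · simp only [g, Real.smoothTransition.one_of_one_le (show 1 ≤ s ^ 2 - 1 by linarith), mul_one]
      rw [inv_mul_cancel₀ q.ne']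
      norm_num
  have d : ∀ t, HasDerivAt (fun u => ∫ s in (0 : ℝ)..u, g s) (g t) t := fun t =>
    (cg.continuous.integral_hasStrictDerivAt 0 t).hasDerivAt
  have e : deriv (fun u => ∫ s in (0 : ℝ)..u, g s) = g := funext fun t => (d t).deriv
  refine ⟨fun u => ∫ s in (0 : ℝ)..u, g s,
    contDiff_infty_iff_deriv.2 ⟨fun t => (d t).differentiableAt, e.symm ▸ cg⟩,
    fun t => e.symm ▸ g0 t, fun t ht => ?_, fun t => ?_⟩
  · show ∫ s in (0 : ℝ)..t, g s = t
    rw [intervalIntegral.integral_congr (g := fun _ => (1 : ℝ)) fun s hs => ?_]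
    · simp
    · have h1 : |s| ≤ 1 := by simpa using (abs_sub_left_of_mem_uIcc hs).trans (by simpa using ht)
      have h2 : s ^ 2 - 1 ≤ 0 := by have := (sq_le_one_iff_abs_le_one s).2 h1; linarith
      simp [g, Real.smoothTransition.zero_of_nonpos h2]
  · have m1 : Monotone fun u => ∫ s in (0 : ℝ)..u, g s :=
      monotone_of_hasDerivAt_nonneg d fun s => (g0 s).le
    have m2 : Monotone fun u => 3 * Real.arctan u - ∫ s in (0 : ℝ)..u, g s :=
      monotone_of_hasDerivAt_nonneg (fun t => ((Real.hasDerivAt_arctan t).const_mul 3).sub (d t))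
        fun s => sub_nonneg.2 (g1 s)
    have a1 := Real.neg_pi_div_two_lt_arctan t
    have a2 := Real.arctan_lt_pi_div_two t
    have a3 := Real.pi_le_four
    rw [abs_le]
    rcases le_total 0 t with h | h <;> have b1 := m1 h <;> have b2 := m2 h <;>
      simp only [intervalIntegral.integral_same, Real.arctan_zero] at b1 b2 <;>
      constructor <;> linarith

/-- a bounded smooth embedding of the plane which is the identity on the unit disc -/
theorem exists_shrink : ∃ r : ℂ → ℂ, IsLocalDiffeomorph 𝓘(ℝ, ℂ) 𝓘(ℝ, ℂ) ∞ r ∧ Injective r ∧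
    (∀ z, ‖z‖ ≤ 1 → r z = z) ∧ ∀ z, ‖r z‖ ≤ 12 := by
  obtain ⟨ρ, h1, h2, h3, h4⟩ := exists_rho
  have inj := (strictMono_of_deriv_pos h2).injective
  let e := Complex.equivRealProdCLM
  refine ⟨fun z => e.symm (Prod.map ρ ρ (e z)), fun z => ?_,
    e.symm.injective.comp ((inj.prodMap inj).comp e.injective), fun z hz => ?_, fun z => ?_⟩
  · let u : ℝ → ℝ ≃L[ℝ] ℝ := fun t => ContinuousLinearEquiv.unitsEquivAut ℝ (Units.mk0 _ (h2 t).ne')
    have du : ∀ t, HasFDerivAt ρ (u t : ℝ →L[ℝ] ℝ) t := fun t =>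
      (h1.differentiable (by simp) t).hasDerivAt.hasFDerivAt_equiv (h2 t).ne'
    exact ld_of_fderiv isOpen_univ (mem_univ z)
      (e.symm.contDiff.comp ((h1.prodMap h1).comp e.contDiff)).contDiffOn
      ((e.trans ((u z.re).prodCongr (u z.im))).trans e.symm)
      (e.symm.hasFDerivAt.comp z ((HasFDerivAt.prodMap (e z) (du _) (du _)).comp z e.hasFDerivAt))
  · rw [e.symm_apply_eq]
    exact Prod.ext (h3 _ ((Complex.abs_re_le_norm z).trans hz))
      (h3 _ ((Complex.abs_im_le_norm z).trans hz))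
  · refine (Complex.norm_le_abs_re_add_abs_im _).trans ?_
    have := h4 z.re
    have := h4 z.im
    show |ρ z.re| + |ρ z.im| ≤ 12
    linarith

theorem tame_of_hs (H : ∀ k, k ≤ 3 → HS k) : Skel83.Tame := by
  intro T
  obtain ⟨ψ, K, k1, k2, -, k4⟩ := smooth_near (I := IT) H Tube.LT T.isOpenEmbedding
    (isCompact_univ.prod (isCompact_closedBall (0 : ℂ) 12))
  obtain ⟨Ψ, p1, -⟩ := exists_pushH T.isOpenEmbedding ψ k1 k2
  obtain ⟨r, r1, r2, r3, r4⟩ := exists_shrink
  refine ⟨⟨(T.τ ∘ ψ) ∘ Prod.map id r, fun z => (ld_prodMap ld_id r1 z).comp _ _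
    (k4 _ ⟨mem_univ _, mem_closedBall_zero_iff.2 (r4 _)⟩),
    (T.isOpenEmbedding.injective.comp ψ.injective).comp (injective_id.prodMap r2)⟩, Ψ,
    fun z hz => ?_⟩
  show T.τ (ψ (z.1, r z.2)) = _
  rw [r3 _ hz, p1]

theorem smooth_of_hs (H : ∀ k, k ≤ 3 → HS k) : Skel83.Smooth := fun _ _ _ f =>
  exists_diffeo H (ContinuousLinearEquiv.refl ℝ _) f

theorem hs_of_plhs (H : ∀ K, Prd34.PLHS K) (k : ℕ) (_ : k ≤ 3) : HS k :=
  (Smo49.hpl_of_plhs k (H _)).hs

/-- **layer T, first output** -/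
theorem tame (H : ∀ K, Prd34.PLHS K) : Skel83.Tame := tame_of_hs (hs_of_plhs H)

/-- **layer T, second output** -/
theorem smooth (H : ∀ K, Prd34.PLHS K) : Skel83.Smooth := smooth_of_hs (hs_of_plhs H)

/-- row 212 from PL handle straightening and the smooth statement -/
theorem goal (H : ∀ K, Prd34.PLHS K) (C : Skel83.Core) : Skel83.Goal :=
  Skel83.goal_of (tame H) (smooth H) C

end Crest.Agent.X212.Glb47
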