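import Mathlib

/-!
# X212 / Glb47 (helper47): pushing compactly supported maps along an open embedding
-/

set_option autoImplicit false

open Set Filter Topology Function

noncomputable section

namespace Crest.Agent.X212.Glb47

variable {X Y T : Type*} [TopologicalSpace X] [TopologicalSpace Y] [TopologicalSpace T]

/-- `e ∘ u ∘ e⁻¹` on the range of `e`, the identity elsewhere -/
def push (e : X → Y) (u : X → X) : Y → Y := extend e (e ∘ u) id

omit [TopologicalSpace X] [TopologicalSpace Y] in
theorem push_apply {e : X → Y} (he : Injective e) (u : X → X) (x : X) :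
    push e u (e x) = e (u x) := he.extend_apply _ _ _

omit [TopologicalSpace X] [TopologicalSpace Y] in
theorem push_of_notMem {e : X → Y} (he : Injective e) {u : X → X} {K : Set X}
    (hu : ∀ x, x ∉ K → u x = x) {y : Y} (hy : y ∉ e '' K) : push e u y = y := by
  by_cases h : ∃ x, e x = y
  · obtain ⟨x, rfl⟩ := h
    rw [push_apply he, hu x fun hx => hy ⟨x, hx, rfl⟩]
  · exact extend_apply' _ _ _ h

theorem continuous_push [T2Space Y] {e : X → Y} (he : IsOpenEmbedding e) {u : T → X → X}
    (hc : Continuous fun p : T × X => u p.1 p.2) {K : Set X} (hK : IsCompact K)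
    (hu : ∀ t x, x ∉ K → u t x = x) : Continuous fun p : T × Y => push e (u p.1) p.2 := by
  refine continuous_iff_continuousAt.2 fun ⟨t, y⟩ => ?_
  by_cases h : ∃ x, e x = y
  · obtain ⟨x, rfl⟩ := h
    have h1 : IsOpenEmbedding (Prod.map (id : T → T) e) := IsOpenEmbedding.id.prodMap he
    refine (h1.continuousAt_iff (g := fun p : T × Y => push e (u p.1) p.2) (x := (t, x))).1 ?_
    have : ((fun p : T × Y => push e (u p.1) p.2) ∘ Prod.map (id : T → T) e) =
        fun p : T × X => e (u p.1 p.2) := funext fun p => push_apply he.injective _ _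
    rw [this]
    exact (he.continuous.comp hc).continuousAt
  · have hy : y ∈ (e '' K)ᶜ := fun ⟨x, _, hx⟩ => h ⟨x, hx⟩
    have ho : IsOpen (e '' K)ᶜ := (hK.image he.continuous).isClosed.isOpen_compl
    refine continuousAt_snd.congr ?_
    filter_upwards [(ho.preimage (continuous_snd (X := T))).mem_nhds (x := (t, y)) hy] with p hp
    exact (push_of_notMem he.injective (hu p.1) hp).symm

theorem symm_of_notMem (ψ : X ≃ₜ X) {K : Set X} (hψ : ∀ x, x ∉ K → ψ x = x) (x : X) (hx : x ∉ K) :
    ψ.symm x = x := by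
  conv_lhs => rw [← hψ x hx]
  exact ψ.symm_apply_apply x

theorem continuous_push' [T2Space Y] {e : X → Y} (he : IsOpenEmbedding e) {u : X → X}
    (hc : Continuous u) {K : Set X} (hK : IsCompact K) (hu : ∀ x, x ∉ K → u x = x) :
    Continuous (push e u) :=
  (continuous_push (T := Unit) he (u := fun _ => u) (hc.comp continuous_snd) hK fun _ => hu).comp
    (Continuous.prodMk_right ())

/-- the pushed homeomorphism -/
def pushH [T2Space Y] {e : X → Y} (he : IsOpenEmbedding e) (ψ : X ≃ₜ X) {K : Set X}
    (hK : IsCompact K) (hψ : ∀ x, x ∉ K → ψ x = x) : Y ≃ₜ Y where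
  toFun := push e ψ
  invFun := push e ψ.symm
  left_inv y := by
    by_cases h : ∃ x, e x = y
    · obtain ⟨x, rfl⟩ := h
      rw [push_apply he.injective, push_apply he.injective, ψ.symm_apply_apply]
    · have h1 : y ∉ e '' K := fun ⟨x, _, hx⟩ => h ⟨x, hx⟩
      rw [push_of_notMem he.injective hψ h1,
        push_of_notMem he.injective (symm_of_notMem ψ hψ) h1]
  right_inv y := by
    by_cases h : ∃ x, e x = y
    · obtain ⟨x, rfl⟩ := h
      rw [push_apply he.injective, push_apply he.injective, ψ.apply_symm_apply]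
    · have h1 : y ∉ e '' K := fun ⟨x, _, hx⟩ => h ⟨x, hx⟩
      rw [push_of_notMem he.injective (symm_of_notMem ψ hψ) h1,
        push_of_notMem he.injective hψ h1]
  continuous_toFun := continuous_push' he ψ.continuous hK hψ
  continuous_invFun := continuous_push' he ψ.symm.continuous hK (symm_of_notMem ψ hψ)

theorem exists_pushH [T2Space Y] {e : X → Y} (he : IsOpenEmbedding e) (ψ : X ≃ₜ X) {K : Set X}
    (hK : IsCompact K) (hψ : ∀ x, x ∉ K → ψ x = x) :
    ∃ Ψ : Y ≃ₜ Y, (∀ x, Ψ (e x) = e (ψ x)) ∧ ∀ y, y ∉ e '' K → Ψ y = y :=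
  ⟨pushH he ψ hK hψ, push_apply he.injective ψ, fun _ => push_of_notMem he.injective hψ⟩

/-- pushed from a vector space: homotopic to the identity -/
theorem exists_pushH_homotopic {V : Type*} [AddCommGroup V] [Module ℝ V] [TopologicalSpace V]
    [IsTopologicalAddGroup V] [ContinuousSMul ℝ V] [T2Space Y] {e : V → Y} (he : IsOpenEmbedding e)
    (ψ : V ≃ₜ V) {K : Set V} (hK : IsCompact K) (hψ : ∀ x, x ∉ K → ψ x = x) :
    ∃ Ψ : Y ≃ₜ Y, (∀ x, Ψ (e x) = e (ψ x)) ∧ (∀ y, y ∉ e '' K → Ψ y = y) ∧
      (Ψ : C(Y, Y)).Homotopic (ContinuousMap.id Y) := by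
  refine ⟨pushH he ψ hK hψ, push_apply he.injective ψ, fun _ => push_of_notMem he.injective hψ, ?_⟩
  let u : unitInterval → V → V := fun t x => ψ x + (t : ℝ) • (x - ψ x)
  have hc : Continuous fun p : unitInterval × V => u p.1 p.2 := by
    have := ψ.continuous
    simp only [u]
    fun_prop
  have hu : ∀ t x, x ∉ K → u t x = x := fun t x hx => by simp [u, hψ x hx]
  refine ⟨⟨⟨fun p => push e (u p.1) p.2, continuous_push he hc hK hu⟩, fun y => ?_, fun y => ?_⟩⟩
  · have : u 0 = ψ := funext fun x => by simp [u]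
    show push e (u 0) y = push e ψ y
    rw [this]
  · show push e (u 1) y = y
    exact push_of_notMem (K := ∅) he.injective (fun x _ => by simp [u]) (by simp)

end Crest.Agent.X212.Glb47
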