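import Crest.Agent.X212.Glb47.Defs
import Crest.Agent.X212.Glb47.Push

/-!
# X212 / Glb47 (helper47): straightening along one cell
-/

set_option autoImplicit false

open Set Filter Topology Function Metric
open scoped ContDiff Manifold
open Crest.Agent.X212.Glue52

noncomputable section

namespace Crest.Agent.X212.Glb47

/-- handle straightening, core coordinates `J` -/
def HJ (J : Finset (Fin 3)) : Prop :=
  ∀ h : E3 → E3, IsOpenEmbedding h →
    (∀ x : E3, (∃ i ∈ J, 1 / 2 ≤ |x i|) → Sm h x) →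
    ∃ ψ : E3 ≃ₜ E3, (∃ R : ℝ, ∀ x, R ≤ ‖x‖ → ψ x = x) ∧
      ∀ x : E3, (∀ i, i ∉ J → x i = 0) → Sm (h ∘ ψ) x

theorem exists_perm : ∀ J : Finset (Fin 3), ∃ π : Equiv.Perm (Fin 3),
    ∀ i, π i ∈ J ↔ i.val < J.card := by decide

theorem HS.hj {J : Finset (Fin 3)} (H : HS J.card) : HJ J := by
  intro h hh hs
  obtain ⟨π, hπ⟩ := exists_perm J
  let L : E3 ≃ₗᵢ[ℝ] E3 := LinearIsometryEquiv.piLpCongrLeft 2 ℝ ℝ π
  have hL : ∀ (x : E3) (i : Fin 3), L x (π i) = x i := fun x i => by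
    simp [L, LinearIsometryEquiv.piLpCongrLeft_apply]
  have ld : IsLocalDiffeomorph 𝓘(ℝ, E3) 𝓘(ℝ, E3) ∞ L := ld_clm L.toContinuousLinearEquiv
  have ld' : IsLocalDiffeomorph 𝓘(ℝ, E3) 𝓘(ℝ, E3) ∞ L.symm := ld_clm L.symm.toContinuousLinearEquiv
  obtain ⟨ψ, ⟨R, hR⟩, hψ⟩ := H (h ∘ L) (hh.comp L.toHomeomorph.isOpenEmbedding) (by
    rintro x ⟨i, hi, hx⟩
    refine sm_iff_ld.2 ((ld x).comp _ _ (sm_iff_ld.1 (hs _ ⟨π i, (hπ i).2 hi, ?_⟩)))
    rwa [hL])
  refine ⟨(L.symm.toHomeomorph.trans ψ).trans L.toHomeomorph, ⟨R, fun x hx => ?_⟩, fun x hx => ?_⟩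
  · show L (ψ (L.symm x)) = x
    rw [hR _ (by rwa [L.symm.norm_map]), L.apply_symm_apply]
  · have := hψ (L.symm x) fun i hi => by
      rw [← hL, L.apply_symm_apply]
      exact hx _ fun h => absurd ((hπ i).1 h) (not_lt.2 hi)
    exact sm_iff_ld.2 ((ld' x).comp _ _ (sm_iff_ld.1 this))

/-- a diffeomorphism of the line onto `(-s, s)` with `|φ t| ≥ ρ` for `|t| ≥ 1/2` -/
theorem exists_squash {ρ s : ℝ} (h0 : 0 < ρ) (h : ρ < s) : ∃ φ : ℝ → ℝ, ContDiff ℝ ∞ φ ∧
    (∀ t, deriv φ t ≠ 0) ∧ Injective φ ∧ φ 0 = 0 ∧ (∀ t, |φ t| < s) ∧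
    (∀ u, |u| < s → ∃ t, φ t = u) ∧ ∀ t, 1 / 2 ≤ |t| → ρ ≤ |φ t| := by
  have hs : 0 < s := h0.trans h
  have hp := Real.pi_pos
  set a : ℝ := 2 * s / Real.pi with ha
  have a0 : 0 < a := by positivity
  have as : a * (Real.pi / 2) = s := by rw [ha]; field_simp
  have r1 : 0 < ρ / a := by positivity
  have r2 : ρ / a < Real.pi / 2 := by rw [div_lt_iff₀ a0]; linarith
  set l : ℝ := 2 * Real.tan (ρ / a) with hl
  have l0 : 0 < l := mul_pos two_pos (Real.tan_pos_of_pos_of_lt_pi_div_two r1 r2)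
  have mono : StrictMono fun t : ℝ => a * Real.arctan (l * t) := fun x y hxy =>
    mul_lt_mul_of_pos_left (Real.arctan_strictMono (mul_lt_mul_of_pos_left hxy l0)) a0
  have half : a * Real.arctan (l * (1 / 2)) = ρ := by
    rw [show l * (1 / 2) = Real.tan (ρ / a) by rw [hl]; ring,
      Real.arctan_tan (by linarith) r2]
    field_simp
  refine ⟨fun t => a * Real.arctan (l * t),
    contDiff_const.mul (Real.contDiff_arctan.comp (contDiff_const.mul contDiff_id)), fun t => ?_,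
    mono.injective, by simp, fun t => ?_, fun u hu => ?_, fun t ht => ?_⟩
  · have : HasDerivAt (fun t => a * Real.arctan (l * t)) (a * (1 / (1 + (l * t) ^ 2) * (l * 1))) t :=
      (((hasDerivAt_id t).const_mul l).arctan).const_mul a
    rw [this.deriv]
    positivity
  · rw [abs_lt, ← as]
    constructor
    · have := mul_lt_mul_of_pos_left (Real.neg_pi_div_two_lt_arctan (l * t)) a0
      linarith
    · exact mul_lt_mul_of_pos_left (Real.arctan_lt_pi_div_two _) a0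
  · rw [abs_lt] at hu
    refine ⟨Real.tan (u / a) / l, ?_⟩
    show a * Real.arctan (l * (Real.tan (u / a) / l)) = u
    rw [mul_div_cancel₀ _ l0.ne', Real.arctan_tan]
    · field_simp
    · rw [lt_div_iff₀ a0]; linarith [hu.1]
    · rw [div_lt_iff₀ a0]; linarith [hu.2]
  · rcases le_abs.1 ht with h1 | h1
    · exact le_abs.2 (Or.inl (half ▸ mono.monotone h1))
    · refine le_abs.2 (Or.inr ?_)
      have := mono.monotone h1
      simp only [mul_neg, Real.arctan_neg] at this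
      exact half ▸ this

/-- coordinatewise maps -/
theorem ld_coord (c : E3) {φ : Fin 3 → ℝ → ℝ} (h : ∀ i, ContDiff ℝ ∞ (φ i))
    (h' : ∀ i t, deriv (φ i) t ≠ 0) : IsLocalDiffeomorph 𝓘(ℝ, E3) 𝓘(ℝ, E3) ∞
      fun x : E3 => (WithLp.toLp 2 fun i => c i + φ i (x i) : E3) := by
  intro x
  have hc : ContDiff ℝ ∞ fun x : E3 => (WithLp.toLp 2 fun i => c i + φ i (x i) : E3) := by
    rw [contDiff_euclidean]
    intro i
    exact contDiff_const.add ((h i).comp (EuclideanSpace.proj (𝕜 := ℝ) i).contDiff)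
  refine ld_of_injective_mfderiv rfl isOpen_univ (mem_univ x) hc.contMDiff.contMDiffOn ?_
  rw [mfderiv_eq_fderiv]
  refine (injective_iff_map_eq_zero _).2 fun (v : E3) hv => ?_
  show v = 0
  ext i
  have d1 : HasFDerivAt (fun x : E3 => c i + φ i (x i))
      (deriv (φ i) (x i) • EuclideanSpace.proj (𝕜 := ℝ) i) x :=
    ((((h i).differentiable (by simp)) (x i)).hasDerivAt.comp_hasFDerivAt x
      (EuclideanSpace.proj (𝕜 := ℝ) i).hasFDerivAt).const_add _
  have d2 := (EuclideanSpace.proj (𝕜 := ℝ) i).hasFDerivAt.comp x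
    ((hc.differentiable (by simp)) x).hasFDerivAt
  have d3 := congrArg (fun A : E3 →L[ℝ] ℝ => A v) (d1.unique d2)
  have hv' : fderiv ℝ (fun x : E3 => (WithLp.toLp 2 fun i => c i + φ i (x i) : E3)) x v = 0 := hv
  simp only [smul_apply, ContinuousLinearMap.comp_apply, hv', map_zero,
    smul_eq_mul, mul_eq_zero, h' i, false_or] at d3
  simpa using d3

/-- closed cell with centre `c`, directions `J`, half side `s` -/
def cl (c : E3) (J : Finset (Fin 3)) (s : ℝ) : Set E3 :=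
  {x | ∀ i, (i ∈ J → |x i - c i| ≤ s) ∧ (i ∉ J → x i = c i)}

/-- open cell -/
def op (c : E3) (J : Finset (Fin 3)) (s : ℝ) : Set E3 :=
  {x | ∀ i, (i ∈ J → |x i - c i| < s) ∧ (i ∉ J → x i = c i)}

theorem op_sub (c : E3) (J : Finset (Fin 3)) (s : ℝ) : op c J s ⊆ cl c J s :=
  fun _ h i => ⟨fun hi => ((h i).1 hi).le, (h i).2⟩

theorem norm_le_of_coord {x : E3} {r : ℝ} (hr : 0 ≤ r) (h : ∀ i, |x i| ≤ r) : ‖x‖ ≤ 2 * r := by
  rw [EuclideanSpace.norm_eq, Real.sqrt_le_iff, Fin.sum_univ_three]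
  have := fun i => sq_le_sq' (abs_le.1 (h i)).1 (abs_le.1 (h i)).2
  refine ⟨by positivity, ?_⟩
  simp only [Real.norm_eq_abs, sq_abs]
  nlinarith [this 0, this 1, this 2]

theorem cl_sub_ball (c : E3) (J : Finset (Fin 3)) {s : ℝ} (hs : 0 ≤ s) :
    cl c J s ⊆ closedBall c (2 * s) := fun x hx => by
  rw [mem_closedBall_iff_norm]
  refine norm_le_of_coord hs fun i => ?_
  by_cases hi : i ∈ J
  · exact (hx i).1 hi
  · simp [(hx i).2 hi, hs]

theorem isClosed_cl (c : E3) (J : Finset (Fin 3)) (s : ℝ) : IsClosed (cl c J s) := by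
  simp only [cl, ofPred_forall, ofPred_and]
  refine isClosed_iInter fun i => (isClosed_iInter fun _ => ?_).inter (isClosed_iInter fun _ => ?_)
  · exact isClosed_le (by fun_prop) continuous_const
  · exact isClosed_eq (by fun_prop) continuous_const

theorem isCompact_cl (c : E3) (J : Finset (Fin 3)) {s : ℝ} (hs : 0 ≤ s) : IsCompact (cl c J s) :=
  (isCompact_closedBall c _).of_isClosed_subset (isClosed_cl c J s) (cl_sub_ball c J hs)

/-- the geometric data: a box around a slightly smaller cell -/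
theorem exists_box {c : E3} {J : Finset (Fin 3)} {s : ℝ} (hs : 0 < s) {O W : Set E3}
    (hO : IsOpen O) (hW : IsOpen W) (h1 : op c J s ⊆ O) (h2 : cl c J s \ op c J s ⊆ W) :
    ∃ e : E3 → E3, IsLocalDiffeomorph 𝓘(ℝ, E3) 𝓘(ℝ, E3) ∞ e ∧ Injective e ∧ (∀ y, e y ∈ O) ∧
      (∀ y, (∃ i ∈ J, 1 / 2 ≤ |y i|) → e y ∈ W) ∧
      ∀ x ∈ cl c J s, (∃ y : E3, (∀ i, i ∉ J → y i = 0) ∧ e y = x) ∨ (x ∉ range e ∧ x ∈ W) := by
  -- a collar of the boundary inside `W`
  have hb : IsCompact (cl c J s \ op c J s) := by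
    have : cl c J s \ op c J s = cl c J s ∩ ⋃ i ∈ J, {x : E3 | s ≤ |x i - c i|} := by
      ext x
      simp only [Set.mem_sdiff, mem_inter_iff, mem_iUnion, mem_ofPred_eq, exists_prop, and_congr_right_iff]
      intro hx
      simp only [op, mem_ofPred_eq, not_forall]
      refine ⟨fun ⟨i, hi⟩ => ?_, fun ⟨i, hi, h⟩ => ⟨i, fun h' => absurd (h'.1 hi) (not_lt.2 h)⟩⟩
      by_cases hJ : i ∈ J
      · exact ⟨i, hJ, not_lt.1 fun h => hi ⟨fun _ => h, fun h' => absurd hJ h'⟩⟩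
      · exact absurd ⟨fun h => absurd h hJ, (hx i).2⟩ hi
    rw [this]
    exact (isCompact_cl c J hs.le).inter_right
      (J.finite_toSet.isClosed_biUnion fun i _ => isClosed_le continuous_const (by fun_prop))
  obtain ⟨δ, δ0, hδ⟩ := hb.exists_cthickening_subset_open hW h2
  set η : ℝ := min (δ / 4) (s / 4) with hη
  have η0 : 0 < η := lt_min (by positivity) (by positivity)
  have η1 : η ≤ δ / 4 := min_le_left _ _
  have η2 : η ≤ s / 4 := min_le_right _ _
  have hcol : ∀ x : E3, (∀ i, (i ∈ J → |x i - c i| ≤ s) ∧ (i ∉ J → |x i - c i| ≤ 2 * η)) →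
      (∃ i ∈ J, s - 2 * η ≤ |x i - c i|) → x ∈ W := by
    rintro x hx ⟨j, hj, hxj⟩
    let z : E3 := WithLp.toLp 2 fun i =>
      if i = j then (if 0 ≤ x j - c j then c j + s else c j - s) else if i ∈ J then x i else c i
    have zj : |z j - c j| = s := by
      by_cases h : 0 ≤ x j - c j
      · simp [z, -sub_nonneg, h, abs_of_pos hs]
      · simp [z, -sub_nonneg, h, abs_of_pos hs]
    have hz : z ∈ cl c J s \ op c J s := by
      refine ⟨fun i => ⟨fun hi => ?_, fun hi => ?_⟩, fun h => absurd ((h j).1 hj) (by simp [zj])⟩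
      · by_cases h : i = j
        · rw [h, zj]
        · simpa [z, h, hi] using (hx i).1 hi
      · have h : i ≠ j := fun h => hi (h ▸ hj)
        simp [z, h, hi]
    refine hδ (mem_cthickening_of_dist_le x z δ _ hz ?_)
    rw [dist_eq_norm]
    refine (norm_le_of_coord (r := 2 * η) (by positivity) fun i => ?_).trans (by linarith)
    by_cases h : i = j
    · subst h
      have := (hx i).1 hj
      by_cases h : 0 ≤ x i - c i
      · rw [abs_of_nonneg h] at this hxj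
        simp only [PiLp.sub_apply, z, h, if_true]
        rw [abs_le]; constructor <;> linarith
      · rw [abs_of_neg (not_le.1 h)] at this hxj
        simp only [PiLp.sub_apply, z, h, if_true, if_false]
        rw [abs_le]; constructor <;> linarith
    · by_cases hi : i ∈ J
      · simp [z, h, hi, η0.le]
      · simpa [z, h, hi] using (hx i).2 hi
  -- the smaller cell inside `O`
  have hsm : cl c J (s - η) ⊆ O := fun x hx => h1 fun i =>
    ⟨fun hi => ((hx i).1 hi).trans_lt (by linarith), (hx i).2⟩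
  obtain ⟨ε, ε0, hε⟩ := (isCompact_cl c J (s := s - η) (by linarith)).exists_cthickening_subset_open
    hO hsm
  set θ : ℝ := min (ε / 2) η with hθ
  have θ0 : 0 < θ := lt_min (by positivity) η0
  have θ1 : θ ≤ ε / 2 := min_le_left _ _
  have θ2 : θ ≤ η := min_le_right _ _
  obtain ⟨φ, p1, p2, p3, p4, p5, p6, p7⟩ :=
    exists_squash (ρ := s - 2 * η) (s := s - η) (by linarith) (by linarith)
  obtain ⟨χ, q1, q2, q3, q4, q5, -, -⟩ := exists_squash (ρ := θ / 2) (s := θ) (by linarith) (by linarith)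
  let Φ : Fin 3 → ℝ → ℝ := fun i => if i ∈ J then φ else χ
  have ΦJ : ∀ i, i ∈ J → Φ i = φ := fun i hi => if_pos hi
  have ΦN : ∀ i, i ∉ J → Φ i = χ := fun i hi => if_neg hi
  have cases : ∀ i, Φ i = φ ∨ Φ i = χ := fun i => (em (i ∈ J)).imp (ΦJ i) (ΦN i)
  let e : E3 → E3 := fun x => WithLp.toLp 2 fun i => c i + Φ i (x i)
  have ee : ∀ y i, e y i - c i = Φ i (y i) := fun y i => by simp [e]
  refine ⟨e, ld_coord c (fun i => ?_) (fun i => ?_), fun x y hxy => ?_, fun y => ?_, ?_, ?_⟩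
  · rcases cases i with h | h <;> rwa [h]
  · rcases cases i with h | h <;> rwa [h]
  · ext i
    have : Φ i (x i) = Φ i (y i) := by rw [← ee, ← ee, hxy]
    rcases cases i with h | h <;> rw [h] at this
    exacts [p3 this, q3 this]
  · let z : E3 := WithLp.toLp 2 fun i => if i ∈ J then e y i else c i
    refine hε (mem_cthickening_of_dist_le _ z ε _ (fun i => ⟨fun hi => ?_, fun hi => ?_⟩) ?_)
    · simp only [z, hi, if_true]
      rw [ee, ΦJ i hi]
      exact (p5 _).le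
    · simp [z, hi]
    · rw [dist_eq_norm]
      refine (norm_le_of_coord (r := θ) θ0.le fun i => ?_).trans (by linarith)
      by_cases hi : i ∈ J
      · simp [z, hi, θ0.le]
      · simp only [PiLp.sub_apply, z, hi, if_false]
        rw [ee, ΦN i hi]
        exact (q5 _).le
  · rintro y ⟨j, hj, hy⟩
    refine hcol _ (fun i => ⟨fun hi => ?_, fun hi => ?_⟩) ⟨j, hj, ?_⟩
    · rw [ee, ΦJ i hi]; linarith [p5 (y i)]
    · rw [ee, ΦN i hi]; linarith [q5 (y i)]
    · rw [ee, ΦJ j hj]; exact p7 _ hy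
  · intro x hx
    by_cases h : ∀ i ∈ J, |x i - c i| < s - η
    · left
      choose! t ht using fun i hi => p6 _ (h i hi)
      refine ⟨WithLp.toLp 2 fun i => if i ∈ J then t i else 0, fun i hi => by simp [hi], ?_⟩
      ext i
      rw [← sub_left_inj (a := c i), ee]
      by_cases hi : i ∈ J
      · simp only [hi, if_true, ΦJ i hi, ht i hi]
      · simp [hi, ΦN i hi, q4, (hx i).2 hi]
    · right
      push Not at h
      obtain ⟨j, hj, hxj⟩ := h
      refine ⟨?_, hcol x (fun i => ⟨(hx i).1, fun hi => ?_⟩) ⟨j, hj, by linarith⟩⟩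
      · rintro ⟨y, rfl⟩
        rw [ee, ΦJ j hj] at hxj
        exact absurd (p5 _) (not_lt.2 hxj)
      · simp [(hx i).2 hi, η0.le]

variable {N : Type*} [TopologicalSpace N] [ChartedSpace E3 N]

theorem isOpen_ld {EM : Type*} [NormedAddCommGroup EM] [NormedSpace ℝ EM] {HM : Type*}
    [TopologicalSpace HM] {I : ModelWithCorners ℝ EM HM} {M : Type*} [TopologicalSpace M]
    [ChartedSpace HM M] (f : M → N) : IsOpen {x | IsLocalDiffeomorphAt I 𝓘(ℝ, E3) ∞ f x} := by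
  refine isOpen_iff_mem_nhds.2 fun x ⟨Φ, hx, e⟩ => ?_
  filter_upwards [Φ.open_source.mem_nhds hx] with y hy using ⟨Φ, hy, e⟩

/-- **one cell** -/
theorem one_cell {c : E3} {J : Finset (Fin 3)} (H : HJ J) {s : ℝ} (hs : 0 < s) {h : E3 → N}
    (hh : IsOpenEmbedding h) (b : PartialDiffeomorph 𝓘(ℝ, E3) 𝓘(ℝ, E3) N E3 ∞) {O : Set E3}
    (hO : IsOpen O) (h1 : op c J s ⊆ O) (hb : ∀ x ∈ O, h x ∈ b.source)
    (h2 : ∀ x ∈ cl c J s \ op c J s, IsLocalDiffeomorphAt 𝓘(ℝ, E3) 𝓘(ℝ, E3) ∞ h x) :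
    ∃ (ψ : E3 ≃ₜ E3) (K : Set E3), IsCompact K ∧ K ⊆ O ∧ (∀ x, x ∉ K → ψ x = x) ∧
      ∀ x ∈ cl c J s, IsLocalDiffeomorphAt 𝓘(ℝ, E3) 𝓘(ℝ, E3) ∞ (h ∘ ψ) x := by
  obtain ⟨e, e1, e2, e3, e4, e5⟩ := exists_box hs hO (isOpen_ld h) h1 h2
  have he := ld_isOpenEmbedding e1 e2
  have hhe := hh.comp he
  have hbe : ∀ y, h (e y) ∈ b.source := fun y => hb _ (e3 y)
  have hemb : IsOpenEmbedding (b ∘ h ∘ e) := by
    have h3 : IsOpenEmbedding (codRestrict (h ∘ e) b.source hbe) :=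
      .of_comp _ b.open_source.isOpenEmbedding_subtypeVal hhe
    exact b.toOpenPartialHomeomorph.isOpenEmbedding_restrict.comp h3
  obtain ⟨ψ, ⟨R, hR⟩, hψ⟩ := H (b ∘ h ∘ e) hemb fun y hy => sm_iff_ld.2
    (((e1 y).comp _ _ (e4 y hy)).comp _ _ (b.isLocalDiffeomorphAt _ _ _ (hbe y)))
  have hK : ∀ x, x ∉ closedBall (0 : E3) R → ψ x = x := fun x hx =>
    hR x (le_of_lt (by simpa using hx))
  obtain ⟨Ψ, Ψ1, Ψ2⟩ := exists_pushH he ψ (isCompact_closedBall 0 R) hK
  have cK := (isCompact_closedBall (0 : E3) R).image he.continuous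
  refine ⟨Ψ, _, cK, by rintro _ ⟨y, -, rfl⟩; exact e3 y, Ψ2, fun x hx => ?_⟩
  rcases e5 x hx with ⟨y, hy, rfl⟩ | ⟨hx1, hx2⟩
  · refine ld_of_comp (e1 y) ?_
    have : (h ∘ Ψ) ∘ e = h ∘ e ∘ ψ := funext fun z => congrArg h (Ψ1 z)
    rw [this]
    exact ld_of_comp_left (b.isLocalDiffeomorphAt _ _ _ (hbe (ψ y)))
      (hhe.continuous.comp ψ.continuous).continuousAt (sm_iff_ld.1 (hψ y hy))
  · refine ld_congr hx2 ?_
    filter_upwards [cK.isClosed.isOpen_compl.mem_nhds fun ⟨y, _, hy⟩ => hx1 ⟨y, hy⟩] with z hz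
    exact congrArg h (Ψ2 z hz)

end Crest.Agent.X212.Glb47
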