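import Crest.Agent.X212.Glue52.More
import Crest.Agent.R096.Str1_696

/-!
# X212 / Glb47 (helper47): handle straightening, the statement

`Sm h x`  : `h` is smooth near `x` with invertible derivative (`sm_iff_ld`: a local diffeomorphism);
`HS k`    : straightening of `k`-handles `ℝ^k × ℝ^(3-k)` (first `k` coordinates = the core);
`HSc k`   : the same in the form "support over the open cube, smooth on the core cube"; `HSc.hs`;
`HPL k`   : the PL handle theorem on `Fin 3 → ℝ` (input of the whole layer, with `Smo49.wrap`).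
-/

set_option autoImplicit false

open Set Filter Topology Function Metric
open scoped ContDiff Manifold
open Crest.Agent.X212.Glue52

noncomputable section

namespace Crest.Agent.X212.Glb47

/-- Euclidean three-space -/
abbrev E3 : Type := EuclideanSpace ℝ (Fin 3)

/-- smooth near `x`, invertible derivative at `x` -/
def Sm (h : E3 → E3) (x : E3) : Prop :=
  (∀ᶠ y in 𝓝 x, ContDiffAt ℝ ∞ h y) ∧ (fderiv ℝ h x).det ≠ 0

/-- **handle straightening**, index `k` -/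
def HS (k : ℕ) : Prop :=
  ∀ h : E3 → E3, IsOpenEmbedding h →
    (∀ x : E3, (∃ i : Fin 3, i.val < k ∧ 1 / 2 ≤ |x i|) → Sm h x) →
    ∃ ψ : E3 ≃ₜ E3, (∃ R : ℝ, ∀ x, R ≤ ‖x‖ → ψ x = x) ∧
      ∀ x : E3, (∀ i : Fin 3, k ≤ i.val → x i = 0) → Sm (h ∘ ψ) x

/-- handle straightening, support over the open cube -/
def HSc (k : ℕ) : Prop :=
  ∀ h : E3 → E3, IsOpenEmbedding h →
    (∀ x : E3, (∃ i : Fin 3, i.val < k ∧ 1 / 2 ≤ |x i|) → Sm h x) →
    ∃ (ψ : E3 ≃ₜ E3) (K : Set E3), IsCompact K ∧ (∀ x ∈ K, ∀ i : Fin 3, i.val < k → |x i| < 1) ∧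
      (∀ x, x ∉ K → ψ x = x) ∧
      ∀ x : E3, (∀ i : Fin 3, i.val < k → |x i| < 1) → (∀ i : Fin 3, k ≤ i.val → x i = 0) →
        Sm (h ∘ ψ) x

/-- three-space with the sup norm -/
abbrev F3 : Type := Fin 3 → ℝ

/-- the compact collar on which a handle is already PL -/
def Cb (k : ℕ) (R : ℝ) : Set F3 := {x | ‖x‖ ≤ R ∧ ∃ i : Fin 3, i.val < k ∧ 3 / 4 ≤ |x i|}

/-- the core cube `[-1,1]^k × 0` -/
def Db (k : ℕ) : Set F3 := {x | ‖x‖ ≤ 1 ∧ ∀ i : Fin 3, k ≤ i.val → x i = 0}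

/-- **PL handle straightening**, index `k` (the provider chooses `R`) -/
def HPL (k : ℕ) : Prop :=
  ∃ R : ℝ, ∀ h : F3 → F3, IsOpenEmbedding h →
    (∃ V : Set F3, IsOpen V ∧ Cb k R ⊆ V ∧ Crest.Agent.R096.Str_696.LocPL h V) →
    ∃ (ψ : F3 ≃ₜ F3) (K P : Set F3), IsCompact K ∧ (∀ x ∈ K, ∀ i : Fin 3, i.val < k → |x i| < 1) ∧
      (∀ x, x ∉ K → ψ x = x) ∧ IsOpen P ∧ Db k ⊆ P ∧ Crest.Agent.R096.Str_696.LocPL (h ∘ ψ) P

theorem Sm.congr {h g : E3 → E3} {x : E3} (H : Sm h x) (e : g =ᶠ[𝓝 x] h) : Sm g x := by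
  refine ⟨?_, by rw [e.fderiv_eq]; exact H.2⟩
  filter_upwards [H.1, e.eventually_nhds] with y hy ey using hy.congr_of_eventuallyEq ey

theorem HSc.hs {k : ℕ} (H : HSc k) : HS k := by
  intro h hh hs
  obtain ⟨ψ, K, hK, hK1, hψ, hc⟩ := H h hh hs
  obtain ⟨R, hR⟩ := hK.isBounded.subset_ball 0
  refine ⟨ψ, ⟨R, fun x hx => hψ x fun h => ?_⟩, fun x hx => ?_⟩
  · exact absurd (mem_ball_zero_iff.1 (hR h)) (not_lt.2 hx)
  · by_cases h1 : ∀ i : Fin 3, i.val < k → |x i| < 1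
    · exact hc x h1 hx
    · have hxK : x ∉ K := fun h => h1 (hK1 x h)
      push Not at h1
      obtain ⟨i, hi, h1⟩ := h1
      refine (hs x ⟨i, hi, by linarith⟩).congr ?_
      filter_upwards [hK.isClosed.isOpen_compl.mem_nhds hxK] with y hy
      simp [hψ y hy]

theorem sm_iff_ld {h : E3 → E3} {x : E3} :
    Sm h x ↔ IsLocalDiffeomorphAt 𝓘(ℝ, E3) 𝓘(ℝ, E3) ∞ h x := by
  constructor
  · rintro ⟨h1, h2⟩
    obtain ⟨s, hs, so, xs⟩ := _root_.eventually_nhds_iff.1 h1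
    have hd : DifferentiableAt ℝ h x := (hs x xs).differentiableAt (by simp)
    exact ld_of_fderiv so xs (fun y hy => (hs y hy).contDiffWithinAt)
      ((fderiv ℝ h x).toContinuousLinearEquivOfDetNeZero h2) (by simpa using hd.hasFDerivAt)
  · intro H
    obtain ⟨Φ, hx, e⟩ := H
    refine ⟨?_, ?_⟩
    · filter_upwards [Φ.open_source.mem_nhds hx] with y hy
      have : IsLocalDiffeomorphAt 𝓘(ℝ, E3) 𝓘(ℝ, E3) ∞ h y := ⟨Φ, hy, e⟩
      exact contMDiffAt_iff_contDiffAt.1 this.contMDiffAt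
    · have H : IsLocalDiffeomorphAt 𝓘(ℝ, E3) 𝓘(ℝ, E3) ∞ h x := ⟨Φ, hx, e⟩
      have e2 := H.mfderivToContinuousLinearEquiv_coe (by simp)
      rw [mfderiv_eq_fderiv] at e2
      rw [← e2]
      exact (H.mfderivToContinuousLinearEquiv (by simp)).toLinearEquiv.isUnit_det'.ne_zero

end Crest.Agent.X212.Glb47
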