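import Crest.Agent.X212.Glb47.Box

/-!
# X212 / Glb47 (helper47): relative smoothing of an open embedding of `ℝ³` near a compact set
-/

set_option autoImplicit false

open Set Filter Topology Function Metric
open scoped ContDiff Manifold
open Crest.Agent.X212.Glue52

noncomputable section

namespace Crest.Agent.X212.Glb47

/-- centre of a grid cell -/
def ctr (δ : ℝ) (c : Fin 3 → ℤ) : E3 := WithLp.toLp 2 fun i => δ * c i

/-- directions of a grid cell -/
def dirs (c : Fin 3 → ℤ) : Finset (Fin 3) := Finset.univ.filter fun i => Odd (c i)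

/-- closed grid cell -/
def gcl (δ : ℝ) (c : Fin 3 → ℤ) : Set E3 := cl (ctr δ c) (dirs c) δ

/-- open grid cell -/
def gop (δ : ℝ) (c : Fin 3 → ℤ) : Set E3 := op (ctr δ c) (dirs c) δ

/-- the finite complex -/
def cx (n : ℕ) : Finset (Fin 3 → ℤ) := Fintype.piFinset fun _ => Finset.Icc (-(2 * n : ℤ)) (2 * n)

theorem mem_dirs {c : Fin 3 → ℤ} {i : Fin 3} : i ∈ dirs c ↔ Odd (c i) := by simp [dirs]

theorem mem_cx {n : ℕ} {c : Fin 3 → ℤ} : c ∈ cx n ↔ ∀ i, -(2 * n : ℤ) ≤ c i ∧ c i ≤ 2 * n := by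
  simp [cx]

theorem int_close {δ : ℝ} (h : 0 < δ) {m m' : ℤ} {k : ℤ} (H : |δ * m - δ * m'| < k * δ) :
    |m - m'| < k := by
  rw [← mul_sub, abs_mul, abs_of_pos h, mul_comm, mul_lt_mul_iff_left₀ h] at H
  exact_mod_cast H

theorem gcl_sub {δ : ℝ} (h : 0 < δ) {c c' : Fin 3 → ℤ} {x : E3} (h1 : x ∈ gop δ c)
    (h2 : x ∈ gcl δ c') : gcl δ c ⊆ gcl δ c' := by
  intro u hu i
  have a := h1 i
  have b := h2 i
  have d := hu i
  simp only [mem_dirs, ctr] at a b d ⊢
  by_cases o : Odd (c i)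
  · have e : c i = c' i := by
      by_cases o' : Odd (c' i)
      · have : |c i - c' i| < 2 := int_close h (by
          have := abs_lt.1 (a.1 o)
          have := abs_le.1 (b.1 o')
          rw [abs_lt]; push_cast; constructor <;> linarith)
        obtain ⟨p, hp⟩ := o
        obtain ⟨q, hq⟩ := o'
        rw [abs_lt] at this
        omega
      · have : |c i - c' i| < 1 := int_close h (by
          have := a.1 o
          rw [b.2 o', abs_sub_comm] at this
          simpa using this)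
        rw [abs_lt] at this
        omega
    rwa [← e]
  · rw [d.2 o, ← a.2 o]
    exact b

theorem exists_face {δ : ℝ} {n : ℕ} {c : Fin 3 → ℤ} (hc : c ∈ cx n) {x : E3}
    (hx : x ∈ gcl δ c \ gop δ c) :
    ∃ c' ∈ cx n, (dirs c').card < (dirs c).card ∧ x ∈ gcl δ c' := by
  obtain ⟨h1, h2⟩ := hx
  obtain ⟨j, hj, hxj⟩ : ∃ j, Odd (c j) ∧ |x j - δ * c j| = δ := by
    by_contra hn
    push Not at hn
    exact h2 fun i => ⟨fun hi => lt_of_le_of_ne ((h1 i).1 hi) (hn i (mem_dirs.1 hi)), (h1 i).2⟩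
  obtain ⟨m, hm, hxm⟩ : ∃ m : ℤ, (m = c j + 1 ∨ m = c j - 1) ∧ x j = δ * m := by
    rcases abs_eq_abs.1 (hxj.trans (abs_of_nonneg (hxj ▸ abs_nonneg _)).symm) with h | h
    · exact ⟨_, Or.inl rfl, by push_cast; linarith⟩
    · exact ⟨_, Or.inr rfl, by push_cast; linarith⟩
  have no : ¬ Odd m := by
    obtain ⟨p, hp⟩ := hj
    rintro ⟨q, hq⟩
    omega
  refine ⟨update c j m, mem_cx.2 fun i => ?_, Finset.card_lt_card ⟨fun i hi => ?_, fun h => ?_⟩,
    fun i => ?_⟩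
  · by_cases h : i = j
    · subst h
      have := mem_cx.1 hc i
      obtain ⟨p, hp⟩ := hj
      rw [update_self]
      omega
    · rw [update_of_ne h]
      exact mem_cx.1 hc i
  · by_cases h : i = j
    · exact h ▸ mem_dirs.2 hj
    · rwa [mem_dirs, update_of_ne h, ← mem_dirs] at hi
  · have := mem_dirs.1 (h (mem_dirs.2 hj))
    rw [update_self] at this
    exact no this
  · by_cases h : i = j
    · subst h
      simp only [mem_dirs, ctr, update_self]
      exact ⟨fun h => absurd h no, fun _ => hxm⟩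
    · have := h1 i
      simp only [mem_dirs, ctr, update_of_ne h] at this ⊢
      exact this

theorem exists_cell {δ : ℝ} (h : 0 < δ) {n : ℕ} {x : E3} (hx : ∀ i, |x i| < 2 * n * δ) :
    ∃ c ∈ cx n, x ∈ gcl δ c := by
  have h2 : 0 < 2 * δ := by positivity
  refine ⟨fun i => 2 * ⌊x i / (2 * δ)⌋ + 1, mem_cx.2 fun i => ?_, fun i => ?_⟩
  · have := abs_lt.1 (hx i)
    have a : -(n : ℤ) ≤ ⌊x i / (2 * δ)⌋ := Int.le_floor.2 (by
      rw [le_div_iff₀ h2]; push_cast; linarith)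
    have b : ⌊x i / (2 * δ)⌋ < n := Int.floor_lt.2 (by
      rw [div_lt_iff₀ h2]; push_cast; linarith)
    omega
  · have a := Int.floor_le (x i / (2 * δ))
    have b := Int.lt_floor_add_one (x i / (2 * δ))
    rw [le_div_iff₀ h2] at a
    rw [div_lt_iff₀ h2] at b
    simp only [mem_dirs, ctr]
    refine ⟨fun _ => ?_, fun hn => absurd ⟨_, rfl⟩ hn⟩
    rw [abs_le]; push_cast; constructor <;> linarith

variable {N : Type*} [TopologicalSpace N] [ChartedSpace E3 N]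

/-- the invariant of the induction over the cells -/
def Inv (δ : ℝ) (n : ℕ) (h : E3 → N) (A : Set E3)
    (b : (Fin 3 → ℤ) → PartialDiffeomorph 𝓘(ℝ, E3) 𝓘(ℝ, E3) N E3 ∞) (S : Finset (Fin 3 → ℤ)) : Prop :=
  ∃ (ψ : E3 ≃ₜ E3) (K : Set E3), IsCompact K ∧ (∀ x, x ∉ K → ψ x = x) ∧
    (∀ x ∈ A, IsLocalDiffeomorphAt 𝓘(ℝ, E3) 𝓘(ℝ, E3) ∞ (h ∘ ψ) x) ∧
    (∀ c ∈ S, ∀ x ∈ gcl δ c, IsLocalDiffeomorphAt 𝓘(ℝ, E3) 𝓘(ℝ, E3) ∞ (h ∘ ψ) x) ∧
    ∀ c ∈ cx n, ∀ x ∈ gcl δ c, h (ψ x) ∈ (b c).source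

theorem Inv.step (H : ∀ J, HJ J) {δ : ℝ} (hδ : 0 < δ) {n : ℕ} {h : E3 → N} (hh : IsOpenEmbedding h)
    {A : Set E3} (hA : IsClosed A)
    {b : (Fin 3 → ℤ) → PartialDiffeomorph 𝓘(ℝ, E3) 𝓘(ℝ, E3) N E3 ∞} {S : Finset (Fin 3 → ℤ)}
    (I : Inv δ n h A b S) (hS : S ⊆ cx n) {c : Fin 3 → ℤ} (hc : c ∈ cx n)
    (hA' : c ∈ S ∨ Disjoint (gcl δ c) A)
    (hf : ∀ c' ∈ cx n, (dirs c').card < (dirs c).card → c' ∈ S) : Inv δ n h A b (insert c S) := by
  classical
  obtain ⟨ψ, K, k1, k2, i1, i2, i3⟩ := I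
  by_cases hin : ∃ c' ∈ S, gcl δ c ⊆ gcl δ c'
  · obtain ⟨c', h1, h2⟩ := hin
    refine ⟨ψ, K, k1, k2, i1, fun d hd => ?_, i3⟩
    rcases Finset.mem_insert.1 hd with rfl | hd
    exacts [fun x hx => i2 c' h1 x (h2 hx), i2 d hd]
  have hA2 : Disjoint (gcl δ c) A := hA'.resolve_left fun h => hin ⟨c, h, Subset.rfl⟩
  have hψ : IsOpenEmbedding (h ∘ ψ) := hh.comp ψ.isOpenEmbedding
  let U : (Fin 3 → ℤ) → Set E3 := fun d =>
    if gcl δ c ⊆ gcl δ d then (h ∘ ψ) ⁻¹' (b d).source else (gcl δ d)ᶜ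
  have Uo : ∀ d, IsOpen (U d) := fun d => by
    simp only [U]
    split_ifs
    exacts [(b d).open_source.preimage hψ.continuous, (isClosed_cl _ _ _).isOpen_compl]
  let O : Set E3 := Aᶜ ∩ ⋂ d ∈ cx n, U d
  have Oo : IsOpen O := hA.isOpen_compl.inter (isOpen_biInter_finset fun d _ => Uo d)
  have O1 : ∀ x ∈ O, ∀ d ∈ cx n, gcl δ c ⊆ gcl δ d → h (ψ x) ∈ (b d).source := fun x hx d hd h' => by
    have := mem_iInter₂.1 hx.2 d hd
    simp only [U, if_pos h'] at this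
    exact this
  have O2 : ∀ x ∈ O, ∀ d ∈ cx n, ¬ gcl δ c ⊆ gcl δ d → x ∉ gcl δ d := fun x hx d hd h' => by
    have := mem_iInter₂.1 hx.2 d hd
    simp only [U, if_neg h'] at this
    exact this
  obtain ⟨χ, L, l1, l2, l3, l4⟩ := one_cell (c := ctr δ c) (H (dirs c)) hδ hψ (b c) Oo
    (fun x hx => ⟨fun h => disjoint_left.1 hA2 (op_sub _ _ _ hx) h, mem_iInter₂.2 fun d hd => by
      simp only [U]
      split_ifs with h'
      exacts [i3 d hd x (h' (op_sub _ _ _ hx)), fun h'' => h' (gcl_sub hδ hx h'')]⟩)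
    (fun x hx => O1 x hx c hc Subset.rfl)
    (fun x hx => by
      obtain ⟨c', h1, h2, h3⟩ := exists_face hc hx
      exact i2 c' (hf c' h1 h2) x h3)
  have keep : ∀ x, x ∉ O → IsLocalDiffeomorphAt 𝓘(ℝ, E3) 𝓘(ℝ, E3) ∞ (h ∘ ψ) x →
      IsLocalDiffeomorphAt 𝓘(ℝ, E3) 𝓘(ℝ, E3) ∞ (h ∘ (χ.trans ψ)) x := fun x hx hl => by
    refine ld_congr hl ?_
    filter_upwards [l1.isClosed.isOpen_compl.mem_nhds fun h => hx (l2 h)] with z hz
    exact congrArg (h ∘ ψ) (l3 z hz)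
  refine ⟨χ.trans ψ, L ∪ K, l1.union k1, fun x hx => ?_, fun x hx => keep x (fun h => h.1 hx) (i1 x hx),
    fun d hd x hx => ?_, fun d hd x hx => ?_⟩
  · rw [mem_union, not_or] at hx
    rw [Homeomorph.trans_apply, l3 x hx.1, k2 x hx.2]
  · rcases Finset.mem_insert.1 hd with rfl | hd
    · exact l4 x hx
    · exact keep x (fun h => O2 x h d (hS hd) (fun h' => hin ⟨d, hd, h'⟩) hx) (i2 d hd x hx)
  · rw [Homeomorph.trans_apply]
    by_cases hL : x ∈ L
    · have hL' : χ x ∈ L := by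
        by_contra hn
        exact hn (by rwa [χ.injective (l3 _ hn)])
      by_cases h' : gcl δ c ⊆ gcl δ d
      · exact O1 _ (l2 hL') d hd h'
      · exact absurd hx (O2 x (l2 hL) d hd h')
    · rw [l3 x hL]
      exact i3 d hd x hx

/-- **relative smoothing**, source `ℝ³` -/
theorem rel [IsManifold 𝓘(ℝ, E3) ∞ N] (H : ∀ k, k ≤ 3 → HS k) {h : E3 → N} (hh : IsOpenEmbedding h)
    {A D : Set E3} (hA : IsClosed A) (hD : IsCompact D)
    (hl : ∀ x ∈ A, IsLocalDiffeomorphAt 𝓘(ℝ, E3) 𝓘(ℝ, E3) ∞ h x) :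
    ∃ (ψ : E3 ≃ₜ E3) (K : Set E3), IsCompact K ∧ (∀ x, x ∉ K → ψ x = x) ∧
      ∀ x ∈ A ∪ D, IsLocalDiffeomorphAt 𝓘(ℝ, E3) 𝓘(ℝ, E3) ∞ (h ∘ ψ) x := by
  classical
  have HJ' : ∀ J, HJ J := fun J => (H _ (by simpa using J.card_le_univ)).hj
  obtain ⟨R, R0, hR⟩ := hD.isBounded.subset_ball_lt 0 0
  let W : Set E3 := {x | IsLocalDiffeomorphAt 𝓘(ℝ, E3) 𝓘(ℝ, E3) ∞ h x}
  let U : N × Bool → Set E3 := fun p =>
    h ⁻¹' (chE 𝓘(ℝ, E3) p.1).source ∩ if p.2 then W else Aᶜ
  obtain ⟨ε, ε0, hε⟩ := lebesgue_number_lemma_of_metric (isCompact_closedBall (0 : E3) (2 * (R + 2)))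
    (c := U) (fun p => ((chE _ p.1).open_source.preimage hh.continuous).inter (by
      split_ifs
      exacts [isOpen_ld h, hA.isOpen_compl])) (fun x _ => by
      by_cases hx : x ∈ A
      · exact mem_iUnion.2 ⟨(h x, true), mem_extChartAt_source (I := 𝓘(ℝ, E3)) (h x), hl x hx⟩
      · exact mem_iUnion.2 ⟨(h x, false), mem_extChartAt_source (I := 𝓘(ℝ, E3)) (h x), hx⟩)
  set δ : ℝ := min (ε / 3) 1 with hδ
  have δ0 : 0 < δ := lt_min (by positivity) one_pos
  have δ1 : δ ≤ ε / 3 := min_le_left _ _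
  have δ2 : δ ≤ 1 := min_le_right _ _
  set n : ℕ := ⌈R / (2 * δ)⌉₊ with hn
  have n1 : R ≤ 2 * n * δ := by
    have := Nat.le_ceil (R / (2 * δ))
    rw [div_le_iff₀ (by positivity)] at this
    linarith
  have n2 : 2 * n * δ ≤ R + 2 := by
    have := Nat.ceil_lt_add_one (a := R / (2 * δ)) (by positivity)
    rw [← hn, ← sub_lt_iff_lt_add, lt_div_iff₀ (by positivity)] at this
    nlinarith
  have hU : ∀ c ∈ cx n, ∃ p, gcl δ c ⊆ U p := fun c hc => by
    obtain ⟨p, hp⟩ := hε (ctr δ c) (by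
      rw [mem_closedBall_zero_iff]
      refine norm_le_of_coord (by positivity) fun i => ?_
      have := mem_cx.1 hc i
      have h1 : |(c i : ℝ)| ≤ 2 * n := by
        rw [abs_le]
        exact ⟨by exact_mod_cast this.1, by exact_mod_cast this.2⟩
      simp only [ctr, abs_mul, abs_of_pos δ0]
      nlinarith)
    exact ⟨p, ((cl_sub_ball _ _ δ0.le).trans (closedBall_subset_ball (by linarith))).trans hp⟩
  have : Nonempty N := ⟨h 0⟩
  choose! p hp using hU
  let b := fun c => chE 𝓘(ℝ, E3) (p c).1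
  let G : Finset (Fin 3 → ℤ) := (cx n).filter fun c => (p c).2 = true
  let S : ℕ → Finset (Fin 3 → ℤ) := fun k => (cx n).filter fun c => c ∈ G ∨ (dirs c).card < k
  have main : ∀ k, Inv δ n h A b (S k) := by
    intro k
    induction k with
    | zero =>
      refine ⟨Homeomorph.refl _, ∅, isCompact_empty, fun _ _ => rfl, hl, fun c hc x hx => ?_,
        fun c hc x hx => (hp c hc hx).1⟩
      simp only [S, G, Finset.mem_filter, Nat.not_lt_zero, or_false] at hc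
      have := (hp c hc.1 hx).2
      rwa [if_pos hc.2.2] at this
    | succ k ih =>
      have inner : ∀ T : Finset (Fin 3 → ℤ), (∀ c ∈ T, c ∈ cx n ∧ (dirs c).card = k) →
          Inv δ n h A b (T ∪ S k) := by
        intro T
        induction T using Finset.induction_on with
        | empty => intro _; simpa using ih
        | insert c T _ ihT =>
          intro hT
          have hc := hT c (Finset.mem_insert_self _ _)
          rw [Finset.insert_union]
          refine (ihT fun d hd => hT d (Finset.mem_insert_of_mem hd)).step HJ' δ0 hh hA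
            (Finset.union_subset (fun d hd => (hT d (Finset.mem_insert_of_mem hd)).1)
              (Finset.filter_subset _ _)) hc.1 ?_ fun d hd h' => Finset.mem_union_right _
                (Finset.mem_filter.2 ⟨hd, Or.inr (hc.2 ▸ h')⟩)
          by_cases hg : (p c).2 = true
          · exact Or.inl (Finset.mem_union_right _
              (Finset.mem_filter.2 ⟨hc.1, Or.inl (Finset.mem_filter.2 ⟨hc.1, hg⟩)⟩))
          · refine Or.inr (disjoint_left.2 fun x hx => ?_)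
            have := (hp c hc.1 hx).2
            rwa [if_neg hg] at this
      have := inner ((cx n).filter fun c => (dirs c).card = k) fun c hc => Finset.mem_filter.1 hc
      convert this using 1
      ext c
      simp only [S, Finset.mem_union, Finset.mem_filter]
      constructor
      · rintro ⟨h1, h2 | h2⟩
        · exact Or.inr ⟨h1, Or.inl h2⟩
        · rcases Nat.lt_succ_iff_lt_or_eq.1 h2 with h3 | h3
          exacts [Or.inr ⟨h1, Or.inr h3⟩, Or.inl ⟨h1, h3⟩]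
      · rintro (⟨h1, h2⟩ | ⟨h1, h2 | h2⟩)
        exacts [⟨h1, Or.inr (by omega)⟩, ⟨h1, Or.inl h2⟩, ⟨h1, Or.inr (by omega)⟩]
  obtain ⟨ψ, K, k1, k2, i1, i2, -⟩ := main 4
  refine ⟨ψ, K, k1, k2, fun x hx => hx.elim (i1 x) fun hx => ?_⟩
  obtain ⟨c, hc, hxc⟩ := exists_cell δ0 (n := n) (x := x) fun i => by
    have h1 := mem_ball_zero_iff.1 (hR hx)
    have h2 : |x i| ≤ ‖x‖ := PiLp.norm_apply_le x i
    linarith
  refine i2 c (Finset.mem_filter.2 ⟨hc, Or.inr ?_⟩) x hxc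
  have := (dirs c).card_le_univ
  simp only [Fintype.card_fin] at this
  omega

end Crest.Agent.X212.Glb47
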