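import Crest.Agent.X212.Smo49.Wrap
import Crest.Agent.X212.Smo49.Box

/-!
# X212 / Glb47 (helper47): smooth handle straightening from the PL one
-/

set_option autoImplicit false

open Set Filter Topology Function Metric
open scoped ContDiff Manifold
open Crest.Agent.R096.P5Spec_205 (HomeoOn)
open Crest.Agent.X212.Smo49 (PLAt str_iff plAt_of_univ SmOn)

noncomputable section

namespace Crest.Agent.X212.Glb47

theorem homeoOn_of_emb {h : E3 → E3} (hh : IsOpenEmbedding h) : HomeoOn h univ (range h) := by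
  refine ⟨⟨fun x _ => mem_range_self x, hh.injective.injOn, image_univ.ge⟩,
    hh.continuous.continuousOn, (hh.toOpenPartialHomeomorph h).symm, ?_, fun x _ =>
      hh.toOpenPartialHomeomorph_left_inv⟩
  simpa using (hh.toOpenPartialHomeomorph h).continuousOn_symm

theorem emb_of_homeoOn {h : E3 → E3} {La : Set E3} (hLa : IsOpen La) (hh : HomeoOn h univ La) :
    IsOpenEmbedding h ∧ range h = La :=
  ⟨.of_continuous_injective_isOpenMap (continuousOn_univ.1 hh.cont) (injOn_univ.1 hh.bij.injOn)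
    fun _ hP => Smo49.isOpen_image hLa hh hP (subset_univ _), image_univ.symm.trans hh.bij.image_eq⟩

theorem exists_factor {X Y : Type*} [TopologicalSpace X] [TopologicalSpace Y] {h h' : X → Y}
    (hh : IsEmbedding h) (hh' : IsEmbedding h') (e : range h' = range h) :
    ∃ ψ : X ≃ₜ X, ∀ x, h (ψ x) = h' x :=
  ⟨(hh'.toHomeomorph.trans (Homeomorph.setCongr e)).trans hh.toHomeomorph.symm, fun x =>
    congrArg Subtype.val (hh.toHomeomorph.apply_symm_apply
      (Homeomorph.setCongr e (hh'.toHomeomorph x)))⟩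

theorem plAt_clm {E F : Type*} [NormedAddCommGroup E] [NormedSpace ℝ E] [NormedAddCommGroup F]
    [NormedSpace ℝ F] (L : E ≃L[ℝ] F) (x : E) : PLAt L x :=
  plAt_of_univ (R096.Bd_416.pl_clm (R096.Ce_537.plOn_id _) (L : E →L[ℝ] F)) x

theorem isCompact_Cb (k : ℕ) (R : ℝ) : IsCompact (Cb k R) := by
  have : Cb k R = closedBall 0 R ∩ ⋃ i ∈ {i : Fin 3 | i.val < k}, {x : F3 | 3 / 4 ≤ |x i|} := by
    ext x; simp [Cb]
  rw [this]
  exact (isCompact_closedBall _ _).inter_right ((toFinite _).isClosed_biUnion fun i _ =>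
    isClosed_le continuous_const (by fun_prop))

theorem isCompact_Db (k : ℕ) : IsCompact (Db k) := by
  have : Db k = closedBall 0 1 ∩ ⋂ i ∈ {i : Fin 3 | k ≤ i.val}, {x : F3 | x i = 0} := by
    ext x; simp [Db]
  rw [this]
  exact (isCompact_closedBall _ _).inter_right (isClosed_biInter fun i _ =>
    isClosed_eq (by fun_prop) continuous_const)

/-- **smooth handle straightening from the PL one** -/
theorem HPL.hs {k : ℕ} (H : HPL k) : HS k := by
  intro h hh hs
  obtain ⟨R, H⟩ := H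
  let L : E3 ≃L[ℝ] F3 := EuclideanSpace.equiv (Fin 3) ℝ
  have cL : ∀ {K : Set F3}, IsCompact K → IsCompact (L ⁻¹' K) := fun hK =>
    L.toHomeomorph.isCompact_preimage.2 hK
  set U : Set E3 := {x | ∃ i : Fin 3, i.val < k ∧ 1 / 2 < |x i|} with hU
  set W : Set E3 := {x | ∀ i : Fin 3, i.val < k → |x i| < 1} with hW
  have oU : IsOpen U := by
    have : U = ⋃ i ∈ {i : Fin 3 | i.val < k}, {x : E3 | 1 / 2 < |x i|} := by ext x; simp [hU]
    rw [this]
    exact isOpen_biUnion fun i _ => isOpen_lt continuous_const (by fun_prop)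
  have oW : IsOpen W := by
    have : W = ⋂ i ∈ {i : Fin 3 | i.val < k}, {x : E3 | |x i| < 1} := by ext x; simp [hW]
    rw [this]
    exact (toFinite _).isOpen_biInter fun i _ => isOpen_lt (by fun_prop) continuous_const
  have sU : ∀ x ∈ U, Sm h x := fun x ⟨i, hi, hx⟩ => hs x ⟨i, hi, hx.le⟩
  obtain ⟨h', a1, ⟨K, a2, -, a3⟩, O, a4, a5, -, a6⟩ := Smo49.wrap isOpen_univ hh.isOpen_range oU oW
    (subset_univ _) (cL (isCompact_Cb k R))
    (fun x ⟨_, i, hi, hx⟩ => ⟨i, hi, lt_of_lt_of_le (by norm_num) hx⟩) (cL (isCompact_Db k))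
    (fun x _ => by
      by_cases hx : x ∈ W
      · exact Or.inl hx
      · simp only [hW, mem_ofPred_eq, not_forall, not_lt] at hx
        obtain ⟨i, hi, hx⟩ := hx
        exact Or.inr ⟨i, hi, by linarith⟩)
    (homeoOn_of_emb hh) ⟨fun x hx => (sU x hx).1.self_of_nhds.contDiffWithinAt, fun x hx => (sU x hx).2⟩
    (by
      rintro h1 b1 ⟨V, b2, b3, b4⟩
      obtain ⟨b5, b6⟩ := emb_of_homeoOn hh.isOpen_range b1
      obtain ⟨ψ, K, P, c1, c2, c3, c4, c5, c6⟩ := H (fun y => L (h1 (L.symm y)))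
        ((L.toHomeomorph.isOpenEmbedding.comp b5).comp L.symm.toHomeomorph.isOpenEmbedding)
        ⟨L.symm ⁻¹' V, b2.preimage L.symm.continuous, fun y hy => b3 (by simpa using hy),
          str_iff.2 fun y hy => (plAt_clm L _).comp ((str_iff.1 b4 _ hy).comp (plAt_clm L.symm y))⟩
      let χ : E3 ≃ₜ E3 := (L.toHomeomorph.trans ψ).trans L.symm.toHomeomorph
      refine ⟨h1 ∘ χ, ?_, ⟨L ⁻¹' K, cL c1, fun x hx => c2 _ hx, fun x hx => ?_⟩, L ⁻¹' P,
        c4.preimage L.continuous, preimage_mono c5, subset_univ _, str_iff.2 fun x hx => ?_⟩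
      · rw [← b6, ← χ.surjective.range_comp h1]
        exact homeoOn_of_emb (b5.comp χ.isOpenEmbedding)
      · show h1 (L.symm (ψ (L x))) = h1 x
        rw [c3 _ hx.2, L.symm_apply_apply]
      · exact ((plAt_clm L.symm _).comp ((str_iff.1 c6 _ hx).comp (plAt_clm L x))).congr
          (Eventually.of_forall fun y => (L.symm_apply_apply _).symm))
  obtain ⟨b5, b6⟩ := emb_of_homeoOn hh.isOpen_range a1
  obtain ⟨ψ, hψ⟩ := exists_factor hh.isEmbedding b5.isEmbedding b6
  obtain ⟨r, hr⟩ := a2.isBounded.subset_ball 0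
  refine ⟨ψ, ⟨r, fun x hx => hh.injective ((hψ x).trans (a3 x ⟨mem_univ _, fun h => ?_⟩))⟩,
    fun x hx => ?_⟩
  · exact absurd (mem_ball_zero_iff.1 (hr h)) (not_lt.2 hx)
  · have hO : x ∈ O := by
      refine a5 ?_
      by_cases h1 : x ∈ W
      · refine Or.inl ⟨(pi_norm_le_iff_of_nonneg zero_le_one).2 fun i => ?_, hx⟩
        rcases lt_or_ge i.val k with hi | hi
        · exact (h1 i hi).le
        · show ‖x i‖ ≤ 1
          rw [hx i hi]; simp
      · refine Or.inr ⟨?_, h1⟩
        simp only [hW, mem_ofPred_eq, not_forall, not_lt] at h1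
        obtain ⟨i, hi, h1⟩ := h1
        exact ⟨i, hi, by linarith⟩
    rw [show h ∘ ψ = h' from funext hψ]
    refine ⟨?_, a6.2 x hO⟩
    filter_upwards [a4.mem_nhds hO] with y hy using a6.1.contDiffAt (a4.mem_nhds hy)

end Crest.Agent.X212.Glb47
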